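import Vale.Agent.P221CY.Fin

/-!
# P221: the Hahn-Wilson conjecture fails in the homotopy category of orthogonal spectra

The stable homotopy category (orthogonal spectra localized at the `π_*`-isomorphisms, with the
derived smash product, the mapping cone triangles and the suspension spectrum functor) is a pair
of an `SHCat` and a `Susp`. In each such pair:

1. it is false that for all primes `p`, all `n` and all standard forms `B` of `BP⟨n⟩_p` the
   fp-spectra of fp-type at most `n` are the members of the thick subcategory generated by `B`;
2. for every prime `p ≥ 5` there is a standard form of `BP⟨2⟩_p`, and there is an fp-spectrum `X`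
   of fp-type at most `2` which lies in the thick subcategory generated by `B` for no standard
   form `B` of `BP⟨2⟩_p`.

The statement uses only the definitions of `P251/T/Axioms`, `P251/St/Base`, `P251CX/Sp`,
`P251CX/St`, `P251CY/Lay`, `P257/H80/HazDefs` and `P221CY/St`.
-/

namespace Vale.Agent.Results.P221.AOrthogonal

open Vale.Agent.P251.St Vale.Agent.P251CX Vale.Agent.P251CY.F

theorem result : (∃ (T : SHCat) (S : Susp T), Nonempty (IsSH T S.toSuspData)) ∧
    ∀ (T : SHCat) (S : Susp T),
      (¬ ∀ (p n : ℕ) (B : T.C), p.Prime → IsStandardForm S p n B →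
        ∀ X : T.C, IsFpType S p n X ↔ Thick B X) ∧
      ∀ p : ℕ, p.Prime → 5 ≤ p → (∃ B : T.C, IsStandardForm S p 2 B) ∧
        ∃ X : T.C, IsFpType S p 2 X ∧ ∀ B : T.C, IsStandardForm S p 2 B → ¬ Thick B X :=
  ⟨exists_isSH, fails⟩

end Vale.Agent.Results.P221.AOrthogonal
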